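import Crest.Agent.Lib.PT.Deg

/-!
# R286 — the algorithm and its running time
-/

set_option autoImplicit false
set_option linter.unusedSectionVars false
set_option linter.unusedVariables false

namespace Crest.Agent.R286

open Crest.Agent.Lib.PT Crest.Enc Classical

noncomputable section defs

variable (n B : ℕ) (T A : List Bool)

/-- the number of jobs -/
def nn (r : List Bool) : ℕ := Fnd (r.length + 1) fun n => n * n + 2 * n.size + 2 = r.length

/-- an entry of the input table (the input is reversed) -/
def ed (r : List Bool) (u v : ℕ) : Prop := r.getD (n * n - 1 - (u * n + v)) false = true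

/-- an entry of the table of the transitive closure -/
def tc (u v : ℕ) : Prop := u < n ∧ v < n ∧ T.getD (u * n + v) false = true

/-- one round for the transitive closure -/
def F1 (r : List Bool) (j : ℕ) : Prop :=
  ed n r (j / n) (j % n) ∨ Bex n fun w => tc n T (j / n) w ∧ ed n r w (j % n)

/-- a linear extension -/
def ix (v : ℕ) : ℕ := Cnt n (fun u => tc n T u v) * n + v

/-- digits -/
def dg (s i : ℕ) : ℕ := s / B ^ i % B

/-- a layer -/
def lay (a b k v : ℕ) : Prop :=
  (a = n ∨ (v = a ∨ tc n T v a) ∨ v = b ∨ tc n T v b) ∧ ix n T v < k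

/-- the set of jobs of a state -/
def memb (s v : ℕ) : Prop :=
  ((dg B s 0 = n ∨ tc n T (dg B s 0) v ∨ tc n T (dg B s 1) v) ∧
    (lay n T (dg B s 2) (dg B s 3) (dg B s 4) v ∨ lay n T (dg B s 5) (dg B s 6) (dg B s 7) v ∨
      lay n T (dg B s 8) (dg B s 9) (dg B s 10) v) ∧
    ¬ (tc n T (dg B s 11) v ∨ tc n T (dg B s 12) v)) ∨
  v = dg B s 13 ∨ v = dg B s 14 ∨ v = dg B s 15

/-- the stored schedule of a state -/
def val (s v : ℕ) : ℕ := Cnt B fun t => A.getD ((s * B + v) * B + t) false = true

/-- the schedule glued from a pair of states -/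
def cand (p v : ℕ) : ℕ :=
  if memb n B T (p % B ^ 17) v then val B A (p % B ^ 17) v
  else p % B ^ 17 / B ^ 16 + val B A (p / B ^ 17) v

/-- the glued schedule is valid for the state `s` -/
def ok (s p : ℕ) : Prop :=
  Ball n (fun v => ¬ memb n B T s v ∨ cand n B T A p v < s / B ^ 16) ∧
  Ball n (fun u => Cnt n (fun v => memb n B T s v ∧ cand n B T A p v = cand n B T A p u) ≤ 3) ∧
  Ball n fun u => Ball n fun v => ¬ (memb n B T s u ∧ memb n B T s v ∧ tc n T u v) ∨
    cand n B T A p u < cand n B T A p v

/-- the first valid pair -/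
def best (s : ℕ) : ℕ := Fnd A.length fun p => ok n B T A s p

/-- one round of the dynamic programme -/
def F2 (j : ℕ) : Prop := j % B < cand n B T A (best n B T A (j / B / B)) (j / B % B)

/-- the first solved state that contains all jobs -/
def star : ℕ :=
  Fnd A.length fun s => Ball n (fun v => memb n B T s v) ∧ best n B T A s < A.length

/-- the output -/
def out : List Bool := ((List.range (n + 1)).map fun i =>
  natCode (if i = 0 then n else cand n B T A (best n B T A (star n B T A)) (i - 1) + 1)).flatten

/-- the dynamic programme -/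
def alg3 : List Bool := out n B T (tab (fun A => F2 n B T A) (B ^ 34) (B ^ 34))

/-- the transitive closure, then the dynamic programme -/
def alg2 (r : List Bool) : List Bool := alg3 n B (tab (fun T => F1 n T r) B B)

/-- the algorithm, on the reversed input -/
def alg (r : List Bool) : List Bool := alg2 (nn r) (nn r * nn r + nn r + 2) r

end defs

section time

variable {α : Type} [Enc α] [Scale α] {k : ℕ} {n B s p u v a b c : α → ℕ} {T A : α → List Bool}

@[fun_prop] theorem dg_st (hB : ST 0 B) (hs : ST k s) (i : ℕ) :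
    ST k fun x => dg (B x) (s x) i := by
  have := hB.up
  unfold dg; fun_prop (disch := omega)

variable (hn : ST 0 n) (hT : FT 0 T)
include hn hT

@[fun_prop] theorem ed_st (hu : ST k u) (hv : ST k v) (hk : 1 ≤ k) :
    ST (k + 1) fun x => ed (n x) (T x) (u x) (v x) := by
  have := hn.up
  unfold ed; fun_prop (disch := omega)

@[fun_prop] theorem tc_st (hu : ST k u) (hv : ST k v) (hk : 1 ≤ k) :
    ST (k + 1) fun x => tc (n x) (T x) (u x) (v x) := by
  have := hn.up; have := hu.up; have := hv.up
  unfold tc; fun_prop (disch := omega)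

variable (hn' : VB 1 n)
include hn'

theorem F1_st (hA : FT 0 A) (hs : ST k s) (hk : 1 ≤ k) :
    ST (k + 2) fun x => F1 (n x) (T x) (A x) (s x) := by
  have := hn.up; have := hs.up
  unfold F1; fun_prop (disch := omega)

@[fun_prop] theorem ix_st (hv : ST k v) (hk : 1 ≤ k) :
    ST (k + 2) fun x => ix (n x) (T x) (v x) := by
  have := hn.up; have := hv.up
  unfold ix; fun_prop (disch := omega)

@[fun_prop] theorem lay_st (ha : ST k a) (hb : ST k b) (hc : ST k c) (hv : ST k v) (hk : 1 ≤ k) :
    ST (k + 2) fun x => lay (n x) (T x) (a x) (b x) (c x) (v x) := by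
  have := hn.up; have := ha.up; have := hb.up; have := hc.up; have := hv.up
  unfold lay; fun_prop (disch := omega)

variable (hB : ST 0 B)
include hB

@[fun_prop] theorem memb_st (hs : ST k s) (hv : ST k v) (hk : 1 ≤ k) :
    ST (k + 2) fun x => memb (n x) (B x) (T x) (s x) (v x) := by
  have := hn.up; have := hs.up; have := hv.up
  unfold memb; fun_prop (disch := omega)

variable (hB' : VB 1 B) (hA : FT 0 A)
include hB' hA

omit hn hT hn' in
@[fun_prop] theorem val_st (hs : ST k s) (hv : ST k v) (hk : 1 ≤ k) :
    ST (k + 2) fun x => val (B x) (A x) (s x) (v x) := by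
  have := hB.up
  unfold val; fun_prop (disch := omega)

@[fun_prop] theorem cand_st (hp : ST k p) (hv : ST k v) (hk : 1 ≤ k) :
    ST (k + 2) fun x => cand (n x) (B x) (T x) (A x) (p x) (v x) := by
  have := hB.up; have := hp.up
  unfold cand; fun_prop (disch := omega)

@[fun_prop] theorem ok_st (hs : ST k s) (hp : ST k p) (hk : 1 ≤ k) :
    ST (k + 4) fun x => ok (n x) (B x) (T x) (A x) (s x) (p x) := by
  have := hn.up; have := hB.up; have := hp.up; have := hs.up
  unfold ok; fun_prop (disch := omega)

@[fun_prop] theorem best_st (hs : ST k s) (hk : 1 ≤ k) :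
    ST (k + 6) fun x => best (n x) (B x) (T x) (A x) (s x) := by
  unfold best; fun_prop (disch := omega)

theorem F2_st (hs : ST k s) (hk : 1 ≤ k) :
    ST (k + 8) fun x => F2 (n x) (B x) (T x) (A x) (s x) := by
  have := hB.up; have := hs.up
  unfold F2; fun_prop (disch := omega)

@[fun_prop] theorem star_st (hk : 1 ≤ k) : ST (k + 8) fun x => star (n x) (B x) (T x) (A x) := by
  have := hn.up
  unfold star; fun_prop (disch := omega)

theorem out_ft : FT 39 fun x => out (n x) (B x) (T x) (A x) := by
  have := hn.up
  exact FT.build (k := 17) (by fun_prop (disch := omega)) (by fun_prop) (by fun_prop (disch := omega))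

omit hA in
theorem alg3_ft : FT 1400 fun x => alg3 (n x) (B x) (T x) :=
  FT.lets (g := fun p : α × List Bool => out (n p.1) (B p.1) (T p.1) p.2) (e := 34)
    (out_ft (by fun_prop) (by fun_prop) (by fun_prop) (by fun_prop) (by fun_prop) (by fun_prop))
    (FT.tab (k := 9) (e := 34) ((hB.up _ (by omega)).pow 34) (hB'.pow 34)
      (F2_st (by fun_prop) (by fun_prop) (by fun_prop) (by fun_prop) (by fun_prop) (by fun_prop)
        (by fun_prop) le_rfl) (by omega) (by omega) (by omega))
    ((hB'.pow 34).mono fun _ => (length_tab _ _ _).le) (by omega) (by omega)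

omit hA in
theorem alg2_ft : FT 1400 fun x => alg2 (n x) (B x) (T x) :=
  FT.lets (g := fun p : α × List Bool => alg3 (n p.1) (B p.1) p.2) (e := 1)
    (alg3_ft (by fun_prop) (by fun_prop) (by fun_prop) (by fun_prop) (by fun_prop))
    (FT.tab (k := 3) (e := 1) (hB.up _ (by omega)) hB'
      (F1_st (by fun_prop) (by fun_prop) (by fun_prop) (by fun_prop) (by fun_prop) le_rfl)
      (by omega) (by omega) (by omega))
    (hB'.mono fun _ => (length_tab _ _ _).le) (by omega) (by omega)

end time

theorem alg_ft : FT 3000 alg := by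
  have h1 : ST 3 nn := by unfold nn; fun_prop (disch := omega)
  have h2 : VB 1 nn := VB.scale.mono fun _ => Cnt_le _ _
  have h3 : VB 1 fun p : List Bool × ℕ => p.2 := by fun_prop
  refine FT.lets (g := fun p : List Bool × ℕ => alg2 p.2 (p.2 * p.2 + p.2 + 2) p.1) (k := 3000) ?_
    (h1.1.mono (by omega)) h2 le_rfl (by omega)
  exact FT.lets (g := fun p : (List Bool × ℕ) × ℕ => alg2 p.1.2 p.2 p.1.1) (e := 2)
    (alg2_ft (by fun_prop) (by fun_prop) (by fun_prop) (by fun_prop) (by fun_prop))
    (show ST 3000 fun p : List Bool × ℕ => p.2 * p.2 + p.2 + 2 by fun_prop).1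
    (((h3.mul h3).add (h3.up one_le_two)).add (VB.const 2)) one_le_two (by omega)

end Crest.Agent.R286
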