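import Mathlib

/-!
# R286 — three machines: the structure theorem

Every instance has an optimal schedule that splits recursively into time intervals whose job sets
have bounded descriptions (`Desc`).
-/

set_option autoImplicit false
set_option linter.unusedSectionVars false

namespace Crest.Agent.R286

open Finset

variable {V : Type} [DecidableEq V] (lt : V → V → Prop) (idx : V → ℕ)

/-- `τ` schedules `K` in the slots `s + 1, …, e` -/
structure Val (K : Finset V) (s e : ℕ) (τ : V → ℕ) : Prop where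
  bd : ∀ v ∈ K, s < τ v ∧ τ v ≤ e
  cap : ∀ t, (K.filter fun v => τ v = t).card ≤ 3
  prec : ∀ u ∈ K, ∀ v ∈ K, lt u v → τ u < τ v

/-- strict successors -/
def up (A : Finset V) : Set V := {v | ∃ a ∈ A, lt a v}

/-- weak predecessors -/
def dn (A : Finset V) : Set V := {v | ∃ a ∈ A, v = a ∨ lt v a}

def IsUp (U : Set V) : Prop := U = Set.univ ∨ ∃ A : Finset V, A.card ≤ 2 ∧ U = up lt A

def IsDn (I : Set V) : Prop := I = Set.univ ∨ ∃ A : Finset V, A.card ≤ 2 ∧ I = dn lt A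

/-- `E` is a union of three layers, every job of `P` owns a layer -/
def Lay (P : Finset V) (E : Set V) : Prop :=
  ∃ (I : Fin 3 → Set V) (k : Fin 3 → ℕ), (∀ i, IsDn lt (I i)) ∧ (∀ i j, I i ⊆ I j ∨ I j ⊆ I i) ∧
    (∀ v, v ∈ E ↔ ∃ i, v ∈ I i ∧ idx v < k i) ∧ ∀ p ∈ P, ∃ i, p ∈ I i ∧ idx p ≤ k i

/-- describable sets of jobs -/
def Desc (K : Finset V) : Prop :=
  ∃ (U E : Set V) (C P : Finset V), IsUp lt U ∧ Lay lt idx ∅ E ∧ C.card ≤ 2 ∧ P.card ≤ 3 ∧
    ∀ v, v ∈ K ↔ (v ∈ U ∧ v ∈ E ∧ v ∉ up lt C) ∨ v ∈ P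

/-- derivations of height at most the first index -/
inductive Der : ℕ → Finset V → ℕ → Prop
  | base {i K l} : 1 ≤ l → K.card ≤ 3 → (∀ u ∈ K, ∀ v ∈ K, ¬ lt u v) → Der i K l
  | split {i K₁ K₂ l₁ l₂} : Desc lt idx K₁ → Desc lt idx K₂ → Der i K₁ l₁ → Der i K₂ l₂ →
      Disjoint K₁ K₂ → (∀ u ∈ K₂, ∀ v ∈ K₁, ¬ lt u v) → Der (i + 1) (K₁ ∪ K₂) (l₁ + l₂)

variable {lt idx}

theorem Val.sub {K K' : Finset V} {s e s' e' : ℕ} {τ : V → ℕ} (h : Val lt K s e τ) (hK : K' ⊆ K)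
    (hb : ∀ v ∈ K', s' < τ v ∧ τ v ≤ e') : Val lt K' s' e' τ :=
  ⟨hb, fun t => (card_le_card (filter_subset_filter _ hK)).trans (h.cap t),
    fun u hu v hv => h.prec u (hK hu) v (hK hv)⟩

theorem Val.glue {K₁ K₂ : Finset V} {s t e : ℕ} {τ₁ τ₂ τ : V → ℕ} (h₁ : Val lt K₁ s t τ₁)
    (h₂ : Val lt K₂ t e τ₂) (hs : s ≤ t) (he : t ≤ e) (hn : ∀ u ∈ K₂, ∀ v ∈ K₁, ¬ lt u v)
    (e₁ : ∀ v ∈ K₁, τ v = τ₁ v) (e₂ : ∀ v ∈ K₂, τ v = τ₂ v) : Val lt (K₁ ∪ K₂) s e τ := by
  refine ⟨fun v hv => ?_, fun r => ?_, fun u hu v hv h => ?_⟩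
  · rcases mem_union.1 hv with h | h
    · have := h₁.bd v h; rw [e₁ v h]; omega
    · have := h₂.bd v h; rw [e₂ v h]; omega
  · rcases le_or_gt r t with hr | hr
    · refine (card_le_card fun v hv => ?_).trans (h₁.cap r)
      simp only [mem_filter, mem_union] at hv ⊢
      rcases hv.1 with h | h
      · exact ⟨h, e₁ v h ▸ hv.2⟩
      · have := h₂.bd v h; have := e₂ v h; omega
    · refine (card_le_card fun v hv => ?_).trans (h₂.cap r)
      simp only [mem_filter, mem_union] at hv ⊢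
      rcases hv.1 with h | h
      · have := h₁.bd v h; have := e₁ v h; omega
      · exact ⟨h, e₂ v h ▸ hv.2⟩
  · rcases mem_union.1 hu with hu | hu <;> rcases mem_union.1 hv with hv | hv
    · rw [e₁ u hu, e₁ v hv]; exact h₁.prec u hu v hv h
    · have := h₁.bd u hu; have := h₂.bd v hv; rw [e₁ u hu, e₂ v hv]; omega
    · exact absurd h (hn u hu v hv)
    · rw [e₂ u hu, e₂ v hv]; exact h₂.prec u hu v hv h

section

variable (tr : ∀ u v w, lt u v → lt v w → lt u w) (mo : ∀ u v, lt u v → idx u < idx v)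
include tr

theorem IsDn.down {I : Set V} (h : IsDn lt I) {u v : V} (hv : v ∈ I) (huv : lt u v) : u ∈ I := by
  rcases h with rfl | ⟨A, -, rfl⟩
  · trivial
  · obtain ⟨a, ha, rfl | h⟩ := hv
    · exact ⟨_, ha, Or.inr huv⟩
    · exact ⟨a, ha, Or.inr (tr _ _ _ huv h)⟩

theorem IsUp.upw {U : Set V} (h : IsUp lt U) {u v : V} (hu : u ∈ U) (huv : lt u v) : v ∈ U := by
  rcases h with rfl | ⟨A, -, rfl⟩
  · trivial
  · obtain ⟨a, ha, h⟩ := hu
    exact ⟨a, ha, tr _ _ _ h huv⟩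

theorem dn_subset {I : Set V} (h : IsDn lt I) {A : Finset V} (hA : ∀ a ∈ A, a ∈ I) :
    dn lt A ⊆ I := by
  rintro v ⟨a, ha, rfl | h'⟩
  · exact hA _ ha
  · exact h.down tr (hA a ha) h'

include mo

theorem Lay.down {P : Finset V} {E : Set V} (h : Lay lt idx P E) {u v : V} (hv : v ∈ E)
    (huv : lt u v) : u ∈ E := by
  obtain ⟨I, k, hI, -, hE, -⟩ := h
  obtain ⟨i, h1, h2⟩ := (hE v).1 hv
  exact (hE u).2 ⟨i, (hI i).down tr h1 huv, (mo _ _ huv).trans h2⟩

/-- the layer lemma -/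
theorem Lay.step (inj : Function.Injective idx) {P J : Finset V} {E : Set V} (h : Lay lt idx P E)
    (hP : P.card ≤ 2) (hJ : ∀ v ∈ J, v ∈ E) (hd : Disjoint J P)
    (hne : ∃ v ∈ J, ∀ p ∈ P, ¬ lt v p) :
    ∃ y ∈ J, (∀ v ∈ J, ¬ lt y v) ∧ (∀ p ∈ P, ¬ lt y p) ∧ ∃ E', Lay lt idx (insert y P) E' ∧
      E' ⊆ E ∧ y ∉ E' ∧ ∀ v ∈ J, v ≠ y → v ∈ E' := by
  classical
  obtain ⟨I, k, hI, hc, hE, hf⟩ := h
  choose! f hf using hf
  obtain ⟨j, hj⟩ : ∃ j, j ∉ P.image f := by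
    by_contra! h
    have := card_le_card (show (univ : Finset (Fin 3)) ⊆ P.image f from fun i _ => h i)
    have := card_image_le (s := P) (f := f)
    simp at *; omega
  have hj' : ∀ p ∈ P, f p ≠ j := fun p hp e => hj (mem_image.2 ⟨p, hp, e⟩)
  by_cases hpr : (J.filter fun v => ∀ i, i ≠ j → ¬ (v ∈ I i ∧ idx v < k i)).Nonempty
  · obtain ⟨y, hy, hmax⟩ := exists_max_image _ idx hpr
    obtain ⟨hyJ, hy⟩ := mem_filter.1 hy
    have hyj : y ∈ I j ∧ idx y < k j := by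
      obtain ⟨i, hi⟩ := (hE y).1 (hJ y hyJ)
      by_cases e : i = j
      · exact e ▸ hi
      · exact absurd hi (hy i e)
    refine ⟨y, hyJ, fun v hv hl => ?_, fun p hp hl => ?_,
      {v | ∃ i, v ∈ I i ∧ idx v < Function.update k j (idx y) i},
      ⟨I, _, hI, hc, fun _ => Iff.rfl, fun p hp => ?_⟩, ?_, ?_, fun v hv hvy => ?_⟩
    · have := hmax v (mem_filter.2 ⟨hv, fun i hi h =>
        hy i hi ⟨(hI i).down tr h.1 hl, (mo _ _ hl).trans h.2⟩⟩)
      have := mo _ _ hl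
      omega
    · exact hy _ (hj' p hp) ⟨(hI _).down tr (hf p hp).1 hl, (mo _ _ hl).trans_le (hf p hp).2⟩
    · rcases mem_insert.1 hp with rfl | hp
      · exact ⟨j, hyj.1, by simp⟩
      · exact ⟨f p, (hf p hp).1, by rw [Function.update_of_ne (hj' p hp)]; exact (hf p hp).2⟩
    · rintro v ⟨i, h1, h2⟩
      refine (hE v).2 ⟨i, h1, ?_⟩
      by_cases e : i = j
      · subst e; rw [Function.update_self] at h2; exact h2.trans hyj.2
      · rwa [Function.update_of_ne e] at h2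
    · rintro ⟨i, h1, h2⟩
      by_cases e : i = j
      · subst e; simp at h2
      · rw [Function.update_of_ne e] at h2; exact hy i e ⟨h1, h2⟩
    · by_cases hv' : ∀ i, i ≠ j → ¬ (v ∈ I i ∧ idx v < k i)
      · obtain ⟨i, hi⟩ := (hE v).1 (hJ v hv)
        have e : i = j := by by_contra e; exact hv' i e hi
        subst e
        refine ⟨i, hi.1, ?_⟩
        rw [Function.update_self]
        exact lt_of_le_of_ne (hmax v (mem_filter.2 ⟨hv, hv'⟩)) fun e => hvy (inj e)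
      · push Not at hv'
        obtain ⟨i, e, hi⟩ := hv'
        exact ⟨i, hi.1, by rw [Function.update_of_ne e]; exact hi.2⟩
  · obtain ⟨a, b, hab, hk⟩ : ∃ a b, (∀ i, i ≠ j → i = a ∨ i = b) ∧ k b ≤ k a := by
      obtain ⟨a, b, h⟩ := (by decide : ∀ j : Fin 3, ∃ a b : Fin 3, ∀ i, i ≠ j → i = a ∨ i = b) j
      rcases le_total (k a) (k b) with h' | h'
      · exact ⟨b, a, fun i hi => (h i hi).symm, h'⟩
      · exact ⟨a, b, h, h'⟩
    have hJ' : ∀ v ∈ J, (v ∈ I a ∧ idx v < k a) ∨ (v ∈ I b ∧ idx v < k b) := fun v hv => by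
      by_contra h
      refine hpr ⟨v, mem_filter.2 ⟨hv, fun i hi h' => h ?_⟩⟩
      rcases hab i hi with rfl | rfl
      · exact Or.inl h'
      · exact Or.inr h'
    obtain ⟨y, hy, hmax⟩ := exists_max_image (J.filter fun v => ∀ p ∈ P, ¬ lt v p) idx
      (by obtain ⟨v, h1, h2⟩ := hne; exact ⟨v, mem_filter.2 ⟨h1, h2⟩⟩)
    obtain ⟨hyJ, hy⟩ := mem_filter.1 hy
    have ny : ∀ A ⊆ P, y ∉ dn lt A := by
      rintro A hA ⟨p, hp, rfl | h⟩
      · exact disjoint_left.1 hd hyJ (hA hp)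
      · exact hy p (hA hp) h
    have big : ∀ v ∈ J, v ≠ y → idx v < idx y ∨ ∃ p ∈ P, lt v p := fun v hv hvy => by
      by_contra! h
      exact hvy (inj (le_antisymm (hmax v (mem_filter.2 ⟨hv, h.2⟩)) h.1))
    set Pa := P.filter fun p => f p = a with hPa
    have dPa : IsDn lt (dn lt Pa) := Or.inr ⟨Pa, (card_filter_le _ _).trans hP, rfl⟩
    have sPa : dn lt Pa ⊆ I a := dn_subset tr (hI a) fun p hp => by
      obtain ⟨h1, h2⟩ := mem_filter.1 hp
      exact h2 ▸ (hf p h1).1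
    have own : ∀ p ∈ P, (p ∈ Pa ∧ idx p ≤ k a) ∨ (p ∈ I b ∧ idx p ≤ k b) := fun p hp => by
      rcases hab _ (hj' p hp) with e | e
      · exact Or.inl ⟨mem_filter.2 ⟨hp, e⟩, e ▸ (hf p hp).2⟩
      · exact Or.inr (e ▸ hf p hp)
    -- the new layers `(dn Pa, k a)`, `(M, k b)`, `(G, idx y)`
    have fin : ∀ M G : Set V, IsDn lt M → IsDn lt G → dn lt Pa ⊆ M → dn lt Pa ⊆ G →
        (M ⊆ G ∨ G ⊆ M) → (∀ p ∈ P, p ∈ I b → p ∈ M) → y ∈ G → ¬ (y ∈ M ∧ idx y < k b) →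
        (∀ v ∈ M, idx v < k b → v ∈ E) → (∀ v ∈ G, idx v < idx y → v ∈ E) →
        (∀ v ∈ J, idx v < idx y → v ∈ G ∨ (v ∈ M ∧ idx v < k b)) →
        ∃ E', Lay lt idx (insert y P) E' ∧ E' ⊆ E ∧ y ∉ E' ∧ ∀ v ∈ J, v ≠ y → v ∈ E' := by
      intro M G dM dG s1 s2 s3 h1 h2 h3 h4 h5 h6
      refine ⟨{v | (v ∈ dn lt Pa ∧ idx v < k a) ∨ (v ∈ M ∧ idx v < k b) ∨ (v ∈ G ∧ idx v < idx y)},
        ⟨![dn lt Pa, M, G], ![k a, k b, idx y], fun i => ?_, fun i i' => ?_, fun v => ?_,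
          fun p hp => ?_⟩, ?_, ?_, fun v hv hvy => ?_⟩
      · fin_cases i <;> assumption
      · fin_cases i <;> fin_cases i' <;> simp [s1, s2, s3, s3.symm]
      · simp [Fin.exists_fin_succ]
      · rcases mem_insert.1 hp with rfl | hp
        · exact ⟨2, h2, le_rfl⟩
        · rcases own p hp with h | h
          · exact ⟨0, ⟨p, h.1, Or.inl rfl⟩, h.2⟩
          · exact ⟨1, h1 p hp h.1, h.2⟩
      · rintro v (h | h | h)
        · exact (hE v).2 ⟨a, sPa h.1, h.2⟩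
        · exact h4 v h.1 h.2
        · exact h5 v h.1 h.2
      · rintro (h | h | h)
        · exact ny Pa (filter_subset _ _) h.1
        · exact h3 h
        · exact lt_irrefl _ h.2
      · rcases big v hv hvy with h | ⟨p, hp, h⟩
        · rcases h6 v hv h with h' | h'
          · exact Or.inr (Or.inr ⟨h', h⟩)
          · exact Or.inr (Or.inl h')
        · rcases own p hp with h' | h'
          · exact Or.inl ⟨⟨p, h'.1, Or.inr h⟩, (mo _ _ h).trans_le h'.2⟩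
          · exact Or.inr (Or.inl ⟨dM.down tr (h1 p hp h'.1) h, (mo _ _ h).trans_le h'.2⟩)
    have dP : IsDn lt (dn lt P) := Or.inr ⟨P, hP, rfl⟩
    have s1 : dn lt Pa ⊆ dn lt P := fun v ⟨p, hp, h⟩ => ⟨p, (mem_filter.1 hp).1, h⟩
    have inP : ∀ p ∈ P, p ∈ I b → p ∈ dn lt P := fun p hp _ => ⟨p, hp, Or.inl rfl⟩
    have sub : ∀ c, I a ⊆ I c → I b ⊆ I c → dn lt P ⊆ I c := fun c h1 h2 =>
      dn_subset tr (hI c) fun p hp => by
        rcases own p hp with h | h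
        · exact h1 (sPa ⟨p, h.1, Or.inl rfl⟩)
        · exact h2 h.1
    have gen : ∀ c, I a ⊆ I c → I b ⊆ I c → k b ≤ k c → idx y < k c →
        ∃ E', Lay lt idx (insert y P) E' ∧ E' ⊆ E ∧ y ∉ E' ∧ ∀ v ∈ J, v ≠ y → v ∈ E' :=
      fun c h1 h2 h3 h4 => fin (dn lt P) (I c) dP (hI c) s1 (sPa.trans h1) (Or.inl (sub c h1 h2)) inP
        ((hJ' y hyJ).elim (fun h => h1 h.1) fun h => h2 h.1) (fun h => ny P Subset.rfl h.1)
        (fun v hv h => (hE v).2 ⟨c, sub c h1 h2 hv, h.trans_le h3⟩)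
        (fun v hv h => (hE v).2 ⟨c, hv, h.trans h4⟩)
        fun v hv _ => Or.inl ((hJ' v hv).elim (fun h => h1 h.1) fun h => h2 h.1)
    have ya : idx y < k a := (hJ' y hyJ).elim (fun h => h.2) fun h => h.2.trans_le hk
    refine ⟨y, hyJ, fun v hv hl => ?_, hy, ?_⟩
    · have := mo _ _ hl
      rcases big v hv (by rintro rfl; omega) with h | ⟨p, hp, h⟩
      · omega
      · exact hy p hp (tr _ _ _ hl h)
    · rcases hc a b with h | h
      · by_cases hb : idx y < k b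
        · exact gen b h Set.Subset.rfl le_rfl hb
        · exact fin (I b) (I a) (hI b) (hI a) (sPa.trans h) sPa (Or.inr h) (fun _ _ h => h)
            ((hJ' y hyJ).elim (fun h => h.1) fun h => absurd h.2 hb) (fun h => hb h.2)
            (fun v hv h => (hE v).2 ⟨b, hv, h⟩) (fun v hv h => (hE v).2 ⟨a, hv, h.trans ya⟩)
            fun v hv _ => (hJ' v hv).imp_left fun h => h.1
      · exact gen a Set.Subset.rfl h hk ya

omit mo in
/-- the exchange argument -/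
theorem exch {J P : Finset V} {s e t : ℕ} {y : V} (hd : Disjoint J P) (hy : y ∈ J)
    (h1 : ∀ v ∈ J, ¬ lt y v) (h2 : ∀ p ∈ P, ¬ lt y p)
    (hmax : ∀ τ, Val lt (J ∪ P) s e τ → (∀ p ∈ P, τ p = e) → τ y ≤ t) {τ : V → ℕ}
    (hτ : Val lt (J ∪ P) s e τ) (hP : ∀ p ∈ P, τ p = e) (ht : τ y = t) :
    ∀ v ∈ J, t < τ v → ∃ a ∈ J, a ≠ y ∧ τ a = t ∧ lt a v := by
  intro v
  induction' hn : τ v using Nat.strong_induction_on with r ih generalizing v
  subst hn
  intro hv htv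
  have hv' : v ∈ J ∪ P := mem_union_left _ hv
  have hy' : y ∈ J ∪ P := mem_union_left _ hy
  by_cases hp : ∃ u ∈ J ∪ P, lt u v ∧ t ≤ τ u
  · obtain ⟨u, hu, hl, htu⟩ := hp
    have h3 := hτ.prec u hu v hv' hl
    have huJ : u ∈ J := (mem_union.1 hu).resolve_right fun h => by
      have := hP u h; have := hτ.bd v hv'; omega
    rcases htu.eq_or_lt with h | h
    · exact ⟨u, huJ, fun e => h1 v hv (e ▸ hl), h.symm, hl⟩
    · obtain ⟨a, ha, g1, g2, g3⟩ := ih _ h3 u rfl huJ h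
      exact ⟨a, ha, g1, g2, tr _ _ _ g3 hl⟩
  · exfalso
    push Not at hp
    have hm : ∀ w ∈ J ∪ P, Equiv.swap y v w ∈ J ∪ P := fun w hw => by
      rw [Equiv.swap_apply_def]; split_ifs <;> assumption
    have := hmax (fun w => τ (Equiv.swap y v w)) ⟨fun w hw => hτ.bd _ (hm w hw), fun r => ?_,
      fun u hu w hw hl => ?_⟩ fun p hp' => ?_
    · simp only [Equiv.swap_apply_left] at this; omega
    · refine (card_le_card_of_injOn (Equiv.swap y v) (fun w hw => ?_)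
        (Equiv.injective _).injOn).trans (hτ.cap r)
      simp only [coe_filter, Set.mem_ofPred_eq] at hw ⊢
      exact ⟨hm w hw.1, hw.2⟩
    · have g := hτ.prec u hu w hw hl
      have uy : u ≠ y := by
        rintro rfl
        exact (mem_union.1 hw).elim (fun h => h1 w h hl) fun h => h2 w h hl
      simp only [Equiv.swap_apply_def, if_neg uy]
      split_ifs with e1 e2 e3 e4 e5
      · subst e1 e2; omega
      · subst e1 e3; omega
      · subst e1; omega
      · subst e4; omega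
      · subst e5; have := hp u hu hl; omega
      · exact g
    · rw [Equiv.swap_apply_of_ne_of_ne, hP p hp']
      · rintro rfl; exact disjoint_left.1 hd hy hp'
      · rintro rfl; exact disjoint_left.1 hd hv hp'

omit tr mo in
theorem Lay.desc {J P C : Finset V} {U E : Set V} (hU : IsUp lt U) (hC : C.card ≤ 2)
    (hE : Lay lt idx P E) (hP : P.card ≤ 3) (hJ : ∀ v, v ∈ J ↔ v ∈ U ∧ v ∈ E ∧ v ∉ up lt C) :
    Desc lt idx (J ∪ P) := by
  obtain ⟨I, k, h1, h2, h3, -⟩ := hE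
  exact ⟨U, E, C, P, hU, ⟨I, k, h1, h2, h3, by simp⟩, hC, hP, fun v => by rw [mem_union, hJ]⟩

omit tr mo in
theorem Lay.mono {P P' : Finset V} {E : Set V} (hE : Lay lt idx P E) (h : P' ⊆ P) :
    Lay lt idx P' E := by
  obtain ⟨I, k, h1, h2, h3, h4⟩ := hE
  exact ⟨I, k, h1, h2, h3, fun p hp => h4 p (h hp)⟩

omit tr mo in
theorem Der.succ {i : ℕ} {K : Finset V} {l : ℕ} (h : Der lt idx i K l) : Der lt idx (i + 1) K l := by
  induction h with
  | base h1 h2 h3 => exact .base h1 h2 h3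
  | split h1 h2 _ _ h3 h4 i1 i2 => exact .split h1 h2 i1 i2 h3 h4

omit tr mo in
theorem Val.base {P K : Finset V} {s e : ℕ} {τ : V → ℕ} (hτ : Val lt K s e τ) (h : P ⊆ K)
    (hP : ∀ p ∈ P, τ p = e) : P.card ≤ 3 ∧ ∀ u ∈ P, ∀ v ∈ P, ¬ lt u v :=
  ⟨(card_le_card fun p hp => mem_filter.2 ⟨h hp, hP p hp⟩).trans (hτ.cap e), fun u hu v hv hl => by
    have := hτ.prec u (h hu) v (h hv) hl
    rw [hP u hu, hP v hv] at this; omega⟩

theorem main (inj : Function.Injective idx) (N : ℕ) : ∀ (J P C : Finset V) (U E : Set V) (s e : ℕ),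
    2 * J.card + P.card ≤ N → Disjoint J P → IsUp lt U → C.card ≤ 2 → Lay lt idx P E →
    (∀ v, v ∈ J ↔ v ∈ U ∧ v ∈ E ∧ v ∉ up lt C) → s < e →
    (∃ τ, Val lt (J ∪ P) s e τ ∧ ∀ p ∈ P, τ p = e) →
    (∀ τ, Val lt (J ∪ P) s e τ → (∀ p ∈ P, τ p = e) → ∀ w ∈ up lt C, w ∈ E → w ∈ U →
      ∃ q ∈ J, τ q = e ∧ lt q w) → Der lt idx N (J ∪ P) (e - s) := by
  classical
  induction N with
  | zero =>
    intro J P C U E s e hN _ _ _ _ _ hse _ _
    obtain rfl : J = ∅ := card_eq_zero.1 (by omega)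
    obtain rfl : P = ∅ := card_eq_zero.1 (by omega)
    exact .base (by omega) (by simp) (by simp)
  | succ N ih =>
  intro J P C U E s e hN hd hU hC hE hJ hse ⟨τ₀, h₀, p₀⟩ hI
  obtain ⟨P3, Pa⟩ := h₀.base subset_union_right p₀
  rcases J.eq_empty_or_nonempty with rfl | ⟨v₀, hv₀⟩
  · rw [empty_union]; exact .base (by omega) P3 Pa
  by_cases hA : P.card ≤ 2 ∧ ∃ v ∈ J, ∀ p ∈ P, ¬ lt v p
  swap
  · have low : ∀ v ∈ J, τ₀ v < e := fun v hv => by
      have := h₀.bd v (mem_union_left _ hv)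
      by_contra hlt
      refine hA ⟨?_, v, hv, fun p hp hl => ?_⟩
      · have := (h₀.base (P := insert v P) (insert_subset (mem_union_left _ hv) subset_union_right)
          fun p hp => (mem_insert.1 hp).elim (fun h => by subst h; omega) (p₀ p)).1
        rw [card_insert_of_notMem (disjoint_left.1 hd hv)] at this
        omega
      · have := h₀.prec v (mem_union_left _ hv) p (mem_union_right _ hp) hl
        have := p₀ p hp
        omega
    have hP : 0 < P.card := by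
      rcases P.eq_empty_or_nonempty with rfl | h
      · exact absurd ⟨by simp, v₀, hv₀, by simp⟩ hA
      · exact h.card_pos
    have b0 := h₀.bd v₀ (mem_union_left _ hv₀)
    have b1 := low v₀ hv₀
    have d1 := ih J ∅ C U E s (e - 1) (by simp; omega) (by simp) hU hC (hE.mono (by simp)) hJ
      (by omega) ⟨τ₀, h₀.sub (by simp) fun v hv => by
        rw [union_empty] at hv
        have := h₀.bd v (mem_union_left _ hv); have := low v hv; omega, by simp⟩
      fun _ _ _ w h1 h2 h3 => by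
        obtain ⟨q, hq, h, -⟩ := hI τ₀ h₀ p₀ w h1 h2 h3
        have := low q hq; omega
    have c1 := (hE.mono (empty_subset P)).desc hU hC (by simp) hJ
    have c2 := hE.desc (J := ∅) (U := up lt ∅) (Or.inr ⟨∅, by simp, rfl⟩) hC P3 (by simp [up])
    rw [union_empty] at d1 c1
    rw [empty_union] at c2
    have := Der.split c1 c2 d1 (.base le_rfl P3 Pa) hd fun u hu v hv hl => by
      have := h₀.prec u (mem_union_right _ hu) v (mem_union_left _ hv) hl
      have := p₀ u hu; have := low v hv; omega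
    rwa [show e - 1 - s + 1 = e - s by omega] at this
  obtain ⟨y, hy, y1, y2, E', hE', s1, s2, s3⟩ :=
    hE.step tr mo inj hA.1 (fun v hv => ((hJ v).1 hv).2.1) hd hA.2
  have hyP : y ∉ P := disjoint_left.1 hd hy
  have hy' : y ∈ J ∪ P := mem_union_left _ hy
  obtain ⟨t, ht, hmax⟩ := exists_max_image ((range (e + 1)).filter fun t =>
    ∃ τ, Val lt (J ∪ P) s e τ ∧ (∀ p ∈ P, τ p = e) ∧ τ y = t) id
    ⟨τ₀ y, mem_filter.2 ⟨mem_range.2 (by have := h₀.bd y hy'; omega), τ₀, h₀, p₀, rfl⟩⟩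
  obtain ⟨τ, hτ, pτ, ht⟩ := (mem_filter.1 ht).2
  replace hmax : ∀ τ, Val lt (J ∪ P) s e τ → (∀ p ∈ P, τ p = e) → τ y ≤ t := fun τ h1 h2 =>
    hmax _ (mem_filter.2 ⟨mem_range.2 (by have := h1.bd y hy'; omega), τ, h1, h2, rfl⟩)
  have by' := hτ.bd y hy'
  have cJ := card_erase_of_mem hy
  have cJ' : 0 < J.card := card_pos.2 ⟨y, hy⟩
  by_cases hte : t = e
  · have e1 : J.erase y ∪ insert y P = J ∪ P := by
      ext v; by_cases h : v = y <;> simp [h, hy]
    rw [← e1]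
    refine (ih (J.erase y) (insert y P) C U E' s e (by rw [card_insert_of_notMem hyP]; omega)
      ?_ hU hC hE' (fun v => ?_) hse ⟨τ, e1 ▸ hτ, fun p hp => ?_⟩ fun τ' h1 h2 w g1 g2 g3 => ?_).succ
    · exact disjoint_insert_right.2 ⟨notMem_erase _ _, hd.mono_left (erase_subset _ _)⟩
    · rw [mem_erase]
      exact ⟨fun h => ⟨((hJ v).1 h.2).1, s3 v h.2 h.1, ((hJ v).1 h.2).2.2⟩,
        fun h => ⟨fun e => s2 (e ▸ h.2.1), (hJ v).2 ⟨h.1, s1 h.2.1, h.2.2⟩⟩⟩
    · rcases mem_insert.1 hp with rfl | hp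
      · omega
      · exact pτ p hp
    · obtain ⟨q, hq, g4, g5⟩ := hI τ' (e1 ▸ h1) (fun p hp => h2 p (mem_insert_of_mem hp)) w g1
        (s1 g2) g3
      exact ⟨q, mem_erase.2 ⟨fun e => s2 (hE'.down tr mo g2 (e ▸ g5)), hq⟩, g4, g5⟩
  have ex := fun τ => exch tr hd hy y1 y2 hmax (τ := τ)
  set A := (J.filter fun v => τ v = t).erase y with hAdef
  set R := J.filter fun v => t < τ v with hR
  set L := (J.filter fun v => τ v ≤ t).erase y with hL
  have mA : ∀ a, a ∈ A ↔ a ≠ y ∧ a ∈ J ∧ τ a = t := fun a => by simp [hAdef]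
  have mR : ∀ a, a ∈ R ↔ a ∈ J ∧ t < τ a := fun a => by simp [hR]
  have mL : ∀ a, a ∈ L ↔ a ≠ y ∧ a ∈ J ∧ τ a ≤ t := fun a => by simp [hL]
  have cA : A.card ≤ 2 := by
    have := card_erase_of_mem (s := J.filter fun v => τ v = t) (mem_filter.2 ⟨hy, ht⟩)
    have := (card_le_card (filter_subset_filter (fun v => τ v = t)
      (subset_union_left (s₂ := P)))).trans (hτ.cap t)
    rw [hAdef]; omega
  have upA : ∀ v ∈ J, v ∈ up lt A ↔ t < τ v := fun v hv =>
    ⟨fun ⟨a, ha, hl⟩ => by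
      have := hτ.prec a (mem_union_left _ ((mA a).1 ha).2.1) v (mem_union_left _ hv) hl
      have := ((mA a).1 ha).2.2; omega,
    fun h => by
      obtain ⟨a, g1, g2, g3, g4⟩ := ex τ hτ pτ ht v hv h
      exact ⟨a, (mA a).2 ⟨g2, g1, g3⟩, g4⟩⟩
  have iA : IsUp lt (up lt A) := Or.inr ⟨A, cA, rfl⟩
  have AU : up lt A ⊆ U := fun v ⟨a, ha, hl⟩ => hU.upw tr ((hJ a).1 ((mA a).1 ha).2.1).1 hl
  have e1 : L ∪ {y} ∪ (R ∪ P) = J ∪ P := by
    ext v
    simp only [mem_union, mL, mR, mem_singleton]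
    by_cases h : v = y
    · simp [h, hy]
    · by_cases h' : τ v ≤ t
      · simp [h, h', h'.not_gt]
      · simp [h, h', not_le.1 h']
  have lo : ∀ v ∈ L ∪ {y}, v ∈ J ∪ P ∧ τ v ≤ t := fun v hv => by
    rcases mem_union.1 hv with h | h
    · exact ⟨mem_union_left _ ((mL v).1 h).2.1, ((mL v).1 h).2.2⟩
    · rw [mem_singleton.1 h]; exact ⟨hy', ht.le⟩
  have hi : ∀ v ∈ R ∪ P, v ∈ J ∪ P ∧ t < τ v := fun v hv => by
    rcases mem_union.1 hv with h | h
    · exact ⟨mem_union_left _ ((mR v).1 h).1, ((mR v).1 h).2⟩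
    · exact ⟨mem_union_right _ h, by have := pτ v h; omega⟩
  have vL : Val lt (L ∪ {y}) s t τ := hτ.sub (fun v hv => (lo v hv).1) fun v hv =>
    ⟨(hτ.bd v (lo v hv).1).1, (lo v hv).2⟩
  have vR : Val lt (R ∪ P) t e τ := hτ.sub (fun v hv => (hi v hv).1) fun v hv =>
    ⟨(hi v hv).2, (hτ.bd v (hi v hv).1).2⟩
  have ne : ∀ u ∈ R ∪ P, ∀ v ∈ L ∪ {y}, ¬ lt u v := fun u hu v hv hl => by
    have := hτ.prec u (hi u hu).1 v (lo v hv).1 hl
    have := (hi u hu).2; have := (lo v hv).2; omega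
  have jL : ∀ v, v ∈ L ↔ v ∈ U ∧ v ∈ E' ∧ v ∉ up lt A := fun v => by
    rw [mL]
    refine ⟨fun h => ⟨((hJ v).1 h.2.1).1, s3 v h.2.1 h.1, fun h' => ?_⟩, fun h => ?_⟩
    · have := (upA v h.2.1).1 h'; omega
    · have hv : v ∈ J := (hJ v).2 ⟨h.1, s1 h.2.1, fun h' => by
        obtain ⟨q, hq, g1, g2⟩ := hI τ hτ pτ v h' (s1 h.2.1) h.1
        exact h.2.2 (iA.upw tr ((upA q hq).2 (by omega)) g2)⟩
      exact ⟨fun e => s2 (e ▸ h.2.1), hv, not_lt.1 fun h' => h.2.2 ((upA v hv).2 h')⟩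
  have jR : ∀ v, v ∈ R ↔ v ∈ up lt A ∧ v ∈ E ∧ v ∉ up lt C := fun v => by
    rw [mR]
    exact ⟨fun h => ⟨(upA v h.1).2 h.2, ((hJ v).1 h.1).2⟩, fun h =>
      have hv := (hJ v).2 ⟨AU h.1, h.2⟩
      ⟨hv, (upA v hv).1 h.1⟩⟩
  have cL : L.card ≤ J.card - 1 := cJ ▸ card_le_card (erase_subset_erase _ (filter_subset _ _))
  have cR : R.card ≤ J.card - 1 := cJ ▸ card_le_card fun v hv =>
    mem_erase.2 ⟨by rintro rfl; have := ((mR _).1 hv).2; omega, ((mR _).1 hv).1⟩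
  have lE' := hE'.mono (P' := {y}) (by simp)
  have d1 := ih L {y} A U E' s t (by simp; omega) (by simp [mL]) hU cA lE' jL (by omega)
    ⟨τ, vL, by simp [ht]⟩ fun τ' h1 h2 w g1 g2 g3 => by
      have v' := h1.glue (τ := fun v => if τ v ≤ t then τ' v else τ v) vR (by omega) (by omega) ne
        (fun v hv => if_pos (lo v hv).2) fun v hv => if_neg (hi v hv).2.not_ge
      rw [e1] at v'
      have p' : ∀ p ∈ P, (if τ p ≤ t then τ' p else τ p) = e := fun p hp => by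
        rw [if_neg (hi p (mem_union_right _ hp)).2.not_ge, pτ p hp]
      have ex' := ex _ v' p' (by simp only [if_pos ht.le]; exact h2 y (by simp))
      have fin : ∀ q ∈ J, t < (if τ q ≤ t then τ' q else τ q) → ∃ a ∈ L, τ' a = t ∧ lt a q :=
        fun q hq h => by
          obtain ⟨a, a1, a2, a3, a4⟩ := ex' q hq h
          by_cases h' : τ a ≤ t
          · exact ⟨a, (mL a).2 ⟨a2, a1, h'⟩, by simpa [h'] using a3, a4⟩
          · simp only [if_neg h'] at a3; omega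
      by_cases hw : w ∈ up lt C
      · obtain ⟨q, hq, q1, q2⟩ := hI _ v' p' w hw (s1 g2) g3
        obtain ⟨a, a1, a2, a3⟩ := fin q hq (by omega)
        exact ⟨a, a1, a2, tr _ _ _ a3 q2⟩
      · have hwJ := (hJ w).2 ⟨g3, s1 g2, hw⟩
        have := (upA w hwJ).1 g1
        exact fin w hwJ (by rwa [if_neg this.not_ge])
  have d2 := ih R P C (up lt A) E t e (by omega) (hd.mono_left (filter_subset _ _)) iA hC hE jR
    (by omega) ⟨τ, vR, pτ⟩ fun τ' h1 h2 w g1 g2 g3 => by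
      have v' := vL.glue (τ := fun v => if τ v ≤ t then τ v else τ' v) h1 (by omega) (by omega) ne
        (fun v hv => if_pos (lo v hv).2) fun v hv => if_neg (hi v hv).2.not_ge
      rw [e1] at v'
      obtain ⟨q, hq, q1, q2⟩ := hI _ v' (fun p hp => by
        rw [if_neg (hi p (mem_union_right _ hp)).2.not_ge, h2 p hp]) w g1 g2 (AU g3)
      by_cases h' : τ q ≤ t
      · simp only [if_pos h'] at q1; omega
      · exact ⟨q, (mR q).2 ⟨hq, not_le.1 h'⟩, by simpa [h'] using q1, q2⟩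
  have := Der.split (lE'.desc hU cA (by simp) jL) (hE.desc iA hC P3 jR) d1 d2
    (disjoint_left.2 fun v h1 h2 => by have := (lo v h1).2; have := (hi v h2).2; omega) ne
  rwa [e1, show t - s + (e - t) = e - s by omega] at this

omit tr mo in
theorem lay_univ [Fintype V] : Lay lt idx ∅ Set.univ :=
  ⟨fun _ => Set.univ, fun _ => univ.sup idx + 1, fun _ => Or.inl rfl, fun _ _ => Or.inl le_rfl,
    fun v => ⟨fun _ => ⟨0, trivial, Nat.lt_succ_of_le (le_sup (mem_univ v))⟩, fun _ => trivial⟩,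
    by simp⟩

omit tr mo in
theorem desc_univ [Fintype V] : Desc lt idx univ := by
  simpa using (lay_univ (lt := lt) (idx := idx)).desc (J := univ) (C := ∅) (Or.inl rfl) (by simp)
    (by simp) (by simp [up])

/-- the structure theorem -/
theorem complete [Fintype V] (inj : Function.Injective idx) {e N : ℕ} {τ : V → ℕ}
    (h : Val lt univ 0 e τ) (he : 0 < e) (hN : 2 * Fintype.card V ≤ N) : Der lt idx N univ e := by
  simpa using main tr mo inj N univ ∅ ∅ Set.univ Set.univ 0 e (by simpa using hN) (by simp)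
    (Or.inl rfl) (by simp) lay_univ (by simp [up]) he ⟨τ, by simpa using h, by simp⟩ (by simp [up])

end

end Crest.Agent.R286
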