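import Crest.Agent.R286.Core
import Crest.Agent.R286.Alg

/-!
# R286 — correctness of the dynamic programme
-/

set_option autoImplicit false
set_option linter.unusedSectionVars false

namespace Crest.Agent.R286

open Crest.Agent.Lib.PT Crest.Enc Finset Classical

theorem Val.congr {V : Type} [DecidableEq V] {lt : V → V → Prop} {K : Finset V} {s e : ℕ}
    {τ τ' : V → ℕ} (h : Val lt K s e τ) (h' : ∀ v ∈ K, τ' v = τ v) : Val lt K s e τ' :=
  ⟨fun v hv => h' v hv ▸ h.bd v hv,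
    fun t => (congrArg card (filter_congr fun v hv => by rw [h' v hv])).trans_le (h.cap t),
    fun u hu v hv hl => by rw [h' u hu, h' v hv]; exact h.prec u hu v hv hl⟩

theorem Val.shift {V : Type} [DecidableEq V] {lt : V → V → Prop} {K : Finset V} {e : ℕ}
    {τ : V → ℕ} (h : Val lt K 0 e τ) (l : ℕ) : Val lt K l (l + e) fun v => l + τ v :=
  ⟨fun v hv => by have := h.bd v hv; omega,
    fun t => (card_le_card fun v hv => by
      simp only [mem_filter] at hv ⊢; exact ⟨hv.1, by omega⟩).trans (h.cap (t - l)),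
    fun u hu v hv hl => Nat.add_lt_add_left (h.prec u hu v hv hl) l⟩

theorem Cnt_fin (n : ℕ) (q : ℕ → Prop) : Cnt n q = (univ.filter fun v : Fin n => q v).card := by
  rw [Cnt, ← card_map Fin.valEmbedding]
  congr 1; ext i
  simp only [mem_filter, mem_range, mem_map, mem_univ, true_and, Fin.valEmbedding_apply]
  exact ⟨fun h => ⟨⟨i, h.1⟩, h.2, rfl⟩, fun ⟨v, h, e⟩ => e ▸ ⟨v.2, h⟩⟩

theorem Ball_fin (n : ℕ) (q : ℕ → Prop) : Ball n q ↔ ∀ v : Fin n, q v :=
  ⟨fun h v => h v v.2, fun h v hv => h ⟨v, hv⟩⟩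

theorem Fnd_lt {n : ℕ} {q : ℕ → Prop} (h : Fnd n q < n) : q (Fnd n q) := by
  by_contra hq
  rw [Fnd, Cnt_lt n n fun i hi => by
    simpa [Bex, hi] using fun j hj h' => hq (Fnd_spec (by omega) h').2] at h
  simp at h

theorem peel {n m : ℕ} {A : Finset (Fin n)} (h : A.card ≤ m + 1) : ∃ a ≤ n + 1, a ≠ n ∧
    ∃ A' : Finset (Fin n), A'.card ≤ m ∧
      ∀ q : ℕ → Prop, ¬ q (n + 1) → ((∃ x ∈ A, q x) ↔ q a ∨ ∃ x ∈ A', q x) := by
  rcases A.eq_empty_or_nonempty with rfl | ⟨a, ha⟩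
  · exact ⟨n + 1, le_rfl, by omega, ∅, by simp, by simp⟩
  · refine ⟨a, by omega, by omega, A.erase a, by rw [card_erase_of_mem ha]; omega, fun q _ => ?_⟩
    conv_lhs => rw [← insert_erase ha]
    simp

theorem two {n : ℕ} {A : Finset (Fin n)} (h : A.card ≤ 2) : ∃ a ≤ n + 1, ∃ b ≤ n + 1, a ≠ n ∧
    ∀ q : ℕ → Prop, ¬ q (n + 1) → ((∃ x ∈ A, q x) ↔ q a ∨ q b) := by
  obtain ⟨a, a1, a2, A₁, h1, e1⟩ := peel h
  obtain ⟨b, b1, -, A₂, h2, e2⟩ := peel h1
  obtain rfl := card_eq_zero.1 (Nat.le_zero.1 h2)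
  exact ⟨a, a1, b, b1, a2, fun q hq => by simp [e1 q hq, e2 q hq]⟩

variable (n B : ℕ) (T : List Bool)

/-- the order -/
def LT (u v : Fin n) : Prop := tc n T u v

/-- the jobs of a state -/
noncomputable def KK (s : ℕ) : Finset (Fin n) := univ.filter fun v => memb n B T s v

/-- the table after `i` rounds -/
noncomputable def tb (i : ℕ) : List Bool := tab (fun A => F2 n B T A) (B ^ 34) i

/-- the stored schedule is valid -/
def good (A : List Bool) (s : ℕ) : Prop :=
  Val (LT n T) (KK n B T s) 0 (s / B ^ 16) fun v => val B A s v + 1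

variable {n B T}

theorem mem_KK {s : ℕ} {v : Fin n} : v ∈ KK n B T s ↔ memb n B T s v := by simp [KK]

theorem ix_lt (v : Fin n) : ix n T v < n * n + n := by
  have := Nat.mul_le_mul_right n (Cnt_le n fun u => tc n T u v)
  have := v.2
  unfold ix; omega

theorem ix_inj : Function.Injective fun v : Fin n => ix n T v := fun u v h => by
  have := congrArg (· % n) h
  simpa [ix, Nat.mod_eq_of_lt, Fin.ext_iff] using this

theorem code_up {C : Finset (Fin n)} (h : C.card ≤ 2) : ∃ a ≤ n + 1, ∃ b ≤ n + 1, a ≠ n ∧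
    ∀ v : Fin n, v ∈ up (LT n T) C ↔ tc n T a v ∨ tc n T b v :=
  let ⟨a, a1, b, b1, h1, h2⟩ := two h
  ⟨a, a1, b, b1, h1, fun v => h2 (fun x => tc n T x v) fun h => by have := h.1; omega⟩

theorem code_isUp {U : Set (Fin n)} (h : IsUp (LT n T) U) : ∃ a ≤ n + 1, ∃ b ≤ n + 1,
    ∀ v : Fin n, v ∈ U ↔ a = n ∨ tc n T a v ∨ tc n T b v := by
  rcases h with rfl | ⟨A, h, rfl⟩
  · exact ⟨n, by omega, n, by omega, by simp⟩
  · obtain ⟨a, a1, b, b1, h1, h2⟩ := code_up (T := T) h
    exact ⟨a, a1, b, b1, by simp [h1, h2]⟩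

theorem code_isDn {I : Set (Fin n)} (h : IsDn (LT n T) I) (k : ℕ) : ∃ a ≤ n + 1, ∃ b ≤ n + 1,
    ∃ c ≤ n * n + n, ∀ v : Fin n, v ∈ I ∧ ix n T v < k ↔ lay n T a b c v := by
  have e : ∀ v : Fin n, ix n T v < min k (n * n + n) ↔ ix n T v < k := fun v => by
    simp [ix_lt v]
  rcases h with rfl | ⟨A, h, rfl⟩
  · exact ⟨n, by omega, n, by omega, _, min_le_right k _, fun v => by simp only [lay, e]; simp⟩
  · obtain ⟨a, a1, b, b1, h1, h2⟩ := two h
    refine ⟨a, a1, b, b1, _, min_le_right k _, fun v => ?_⟩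
    simp only [lay, e, h1, false_or]
    rw [← h2 (fun x => v = x ∨ tc n T v x) (by
      rintro (h | h)
      · omega
      · have := h.2.1; omega)]
    simp [dn, Fin.ext_iff, LT]

theorem ok_iff (A : List Bool) (s p : ℕ) : ok n B T A s p ↔
    Val (LT n T) (KK n B T s) 0 (s / B ^ 16) fun v => cand n B T A p v + 1 := by
  simp only [ok, Ball_fin, Cnt_fin]
  refine ⟨fun ⟨h1, h2, h3⟩ => ⟨fun v hv => ⟨by omega, (h1 v).resolve_left (not_not.2 (mem_KK.1 hv))⟩,
    fun t => ?_, fun u hu v hv hl => ?_⟩, fun h => ⟨fun v => ?_, fun u => ?_, fun u v => ?_⟩⟩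
  · rcases ((KK n B T s).filter fun v : Fin n => cand n B T A p v + 1 = t).eq_empty_or_nonempty with
      h | ⟨u, hu⟩
    · simp [h]
    · refine (card_le_card fun v hv => ?_).trans (h2 u)
      simp only [mem_filter, mem_KK, mem_univ, true_and] at hu hv ⊢
      exact ⟨hv.1, by omega⟩
  · exact Nat.succ_lt_succ ((h3 u v).resolve_left (not_not.2 ⟨mem_KK.1 hu, mem_KK.1 hv, hl⟩))
  · exact imp_iff_not_or.1 fun hv => (h.bd v (mem_KK.2 hv)).2
  · refine (card_le_card fun v hv => ?_).trans (h.cap (cand n B T A p u + 1))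
    simpa [mem_KK] using hv
  · exact imp_iff_not_or.1 fun h' =>
      Nat.lt_of_succ_lt_succ (h.prec u (mem_KK.2 h'.1) v (mem_KK.2 h'.2.1) h'.2.2)

theorem persist {A : List Bool} {s : ℕ} (hs : s < B ^ 17) (h : good n B T A s) : ok n B T A s s :=
  (ok_iff _ _ _).2 (h.congr fun v hv => by simp [cand, Nat.mod_eq_of_lt hs, mem_KK.1 hv])

variable (hB : n * n + n + 2 ≤ B)
include hB

theorem code {K : Finset (Fin n)} (h : Desc (LT n T) (fun v => ix n T v) K) {l : ℕ} (hl : l < B) :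
    ∃ s < B ^ 17, KK n B T s = K ∧ s / B ^ 16 = l := by
  obtain ⟨U, E, C, P, hU, ⟨I, k, hI, -, hE, -⟩, hC, hP, hK⟩ := h
  obtain ⟨c0, b0, c1, b1, eU⟩ := code_isUp hU
  obtain ⟨c2, b2, c3, b3, c4, b4, e0⟩ := code_isDn (hI 0) (k 0)
  obtain ⟨c5, b5, c6, b6, c7, b7, e1⟩ := code_isDn (hI 1) (k 1)
  obtain ⟨c8, b8, c9, b9, c10, b10, e2⟩ := code_isDn (hI 2) (k 2)
  obtain ⟨c11, b11, c12, b12, -, eC⟩ := code_up (T := T) hC
  obtain ⟨c13, b13, -, P', hP', eP⟩ := peel hP
  obtain ⟨c14, b14, c15, b15, -, eP'⟩ := two hP'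
  let c : Fin 17 → ℕ := ![c0, c1, c2, c3, c4, c5, c6, c7, c8, c9, c10, c11, c12, c13, c14, c15, l]
  have hc : ∀ i, c i < B := fun i => by fin_cases i <;> simp [c] <;> omega
  let s := finFunctionFinEquiv fun i => (⟨c i, hc i⟩ : Fin B)
  have hs : ∀ i : Fin 17, dg B s i = c i := fun i => by
    rw [dg, ← finFunctionFinEquiv_symm_apply_val, Equiv.symm_apply_apply]
  refine ⟨s, s.2, ?_, ?_⟩
  · ext v
    have e3 : v ∈ P ↔ v = c13 ∨ v = c14 ∨ v = c15 := by
      have hq : ¬ (v : ℕ) = n + 1 := by omega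
      rw [← eP' (fun x => v = x) hq, ← eP (fun x => v = x) hq]
      simp [← Fin.ext_iff]
    rw [mem_KK, hK, hE, eU, eC, e3, Fin.exists_fin_succ, Fin.exists_fin_two]
    simp only [Fin.succ_zero_eq_one, Fin.succ_one_eq_two, e0, e1, e2]
    exact Iff.of_eq (by
      unfold memb
      rw [show dg B s 0 = c0 from hs 0, show dg B s 1 = c1 from hs 1, show dg B s 2 = c2 from hs 2,
        show dg B s 3 = c3 from hs 3, show dg B s 4 = c4 from hs 4, show dg B s 5 = c5 from hs 5,
        show dg B s 6 = c6 from hs 6, show dg B s 7 = c7 from hs 7, show dg B s 8 = c8 from hs 8,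
        show dg B s 9 = c9 from hs 9, show dg B s 10 = c10 from hs 10,
        show dg B s 11 = c11 from hs 11, show dg B s 12 = c12 from hs 12,
        show dg B s 13 = c13 from hs 13, show dg B s 14 = c14 from hs 14,
        show dg B s 15 = c15 from hs 15])
  · exact (Nat.mod_eq_of_lt (Nat.div_lt_of_lt_mul s.2)).symm.trans (hs 16)

theorem next {i s p : ℕ} (hs : s < B ^ 17) (hp : p < B ^ 34) (h : ok n B T (tb n B T i) s p) :
    good n B T (tb n B T (i + 1)) s := by
  have h1 := (ok_iff _ _ _).1 (Fnd_spec (n := (tb n B T i).length) (by simpa [tb]) h).2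
  refine h1.congr fun v hv => ?_
  have h2 := (h1.bd v hv).2
  have h3 : s / B ^ 16 < B := Nat.div_lt_of_lt_mul hs
  have h4 : (v : ℕ) < B := by omega
  have h5 : s * B + v < B ^ 18 := by rw [pow_succ]; nlinarith
  rw [val, Cnt_lt B (cand n B T (tb n B T i) (best n B T (tb n B T i) s) v) fun t ht => ?_]
  · exact congrArg (· + 1) (min_eq_right ((Nat.le_of_succ_le h2).trans h3.le))
  · rw [tb, getD_tab _ _ (lt_of_lt_of_le (b := B ^ 19) (by rw [pow_succ]; nlinarith)
      (Nat.pow_le_pow_right (by omega) (by omega))), F2]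
    simp [Nat.add_comm (_ * B), Nat.add_mul_div_right _ _ (show 0 < B by omega), Nat.div_eq_of_lt ht,
      Nat.div_eq_of_lt h4, Nat.mod_eq_of_lt ht, Nat.mod_eq_of_lt h4, tb]

theorem der_good {i l : ℕ} {K : Finset (Fin n)} (h : Der (LT n T) (fun v => ix n T v) i K l) :
    ∀ s < B ^ 17, KK n B T s = K → s / B ^ 16 = l → good n B T (tb n B T i) s := by
  induction h with
  | @base i K l h1 h2 h3 =>
    intro s hs e1 e2
    induction i with
    | zero =>
      have : ∀ v, val B (tb n B T 0) s v = 0 := fun v => by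
        rw [val, Cnt_lt B 0 fun t _ => by rw [tb, tab_zero]; simp, Nat.min_zero]
      rw [good, e1, e2]
      exact ⟨fun v _ => by rw [this]; omega, fun t => (card_filter_le _ _).trans h2,
        fun u hu v hv hl => absurd hl (h3 u hu v hv)⟩
    | succ i ih =>
      exact next hB hs (hs.trans_le (Nat.pow_le_pow_right (by omega) (by omega))) (persist hs ih)
  | @split i K₁ K₂ l₁ l₂ d₁ d₂ _ _ hd hn ih₁ ih₂ =>
    intro s hs e1 e2
    have h3 : s / B ^ 16 < B := Nat.div_lt_of_lt_mul hs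
    obtain ⟨s₁, a1, a2, a3⟩ := code hB d₁ (l := l₁) (by omega)
    obtain ⟨s₂, b1, b2, b3⟩ := code hB d₂ (l := l₂) (by omega)
    have g₁ := ih₁ s₁ a1 a2 a3
    have g₂ := (ih₂ s₂ b1 b2 b3).shift l₁
    rw [good, a2, a3] at g₁
    rw [b2, b3] at g₂
    have p1 : (s₁ + B ^ 17 * s₂) % B ^ 17 = s₁ := by simp [Nat.mod_eq_of_lt a1]
    have p2 : (s₁ + B ^ 17 * s₂) / B ^ 17 = s₂ := by
      rw [Nat.add_mul_div_left _ _ (by omega), Nat.div_eq_of_lt a1, zero_add]
    refine next hB (p := s₁ + B ^ 17 * s₂) hs (by rw [show 34 = 17 + 17 from rfl, pow_add]; nlinarith)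
      ((ok_iff _ _ _).2 ?_)
    rw [e1, e2]
    refine g₁.glue g₂ (by omega) (by omega) hn (fun v hv => ?_) fun v hv => ?_
    · rw [cand, p1, if_pos (mem_KK.1 (a2 ▸ hv))]
    · rw [cand, p1, p2, a3, if_neg fun h => disjoint_left.1 hd (a2 ▸ mem_KK.2 h) hv, add_assoc]

/-- the output of the dynamic programme is an optimal schedule -/
theorem alg3_spec (hn : 1 ≤ n) (tr : ∀ u v w, LT n T u v → LT n T v w → LT n T u w)
    (irr : ∀ v, ¬ LT n T v v) : ∃ (τ : Fin n → ℕ) (e : ℕ), alg3 n B T = listCode (List.ofFn τ) ∧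
      Val (LT n T) univ 0 e τ ∧ ∀ τ' e', Val (LT n T) univ 0 e' τ' → e ≤ e' := by
  have mo : ∀ u v, LT n T u v → ix n T u < ix n T v := fun u v h => by
    have : Cnt n (fun w => tc n T w u) < Cnt n fun w => tc n T w v := by
      rw [Cnt_fin, Cnt_fin]
      exact card_lt_card ⟨fun w hw => mem_filter.2 ⟨mem_univ _, tr w u v (mem_filter.1 hw).2 h⟩,
        fun hs => irr u (mem_filter.1 (hs (mem_filter.2 ⟨mem_univ u, h⟩))).2⟩
    have := Nat.mul_le_mul_right n this
    have := u.2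
    unfold ix; rw [Nat.succ_mul] at *; omega
  set A := tb n B T (B ^ 34) with hA
  have hl : A.length = B ^ 34 := length_tab _ _ _
  have key : ∀ τ' e', e' < B → Val (LT n T) univ 0 e' τ' → star n B T A / B ^ 16 ≤ e' ∧
      Ball n (fun v => memb n B T (star n B T A) v) ∧ best n B T A (star n B T A) < A.length := by
    intro τ' e' he h
    obtain ⟨s, s1, s2, s3⟩ := code hB desc_univ he
    have s4 : s < A.length := hl ▸ s1.trans_le (Nat.pow_le_pow_right (by omega) (by omega))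
    have h0 := h.bd ⟨0, hn⟩ (mem_univ _)
    have := persist s1 (der_good hB (complete tr mo ix_inj h (by omega) (N := B ^ 34) (by
      have := Nat.le_self_pow (n := 34) (by omega) B
      have := Nat.mul_le_mul_left n hn
      simp; omega)) s s1 s2 s3)
    have := Fnd_spec (q := fun s => Ball n (fun v => memb n B T s v) ∧ best n B T A s < A.length) s4
      ⟨(Ball_fin _ _).2 fun v => mem_KK.1 (s2 ▸ mem_univ v), (Fnd_spec s4 this).1.trans_lt s4⟩
    exact ⟨s3 ▸ Nat.div_le_div_right this.1, this.2⟩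
  obtain ⟨k1, k2, k3⟩ := key (fun v => ix n T v + 1) (n * n + n) (by omega)
    ⟨fun v _ => ⟨by omega, ix_lt v⟩, fun t => (card_le_one.2 fun u hu v hv => ix_inj (T := T) (by
      have := (mem_filter.1 hu).2; have := (mem_filter.1 hv).2; simp only []; omega)).trans (by omega),
      fun u _ v _ h => Nat.succ_lt_succ (mo u v h)⟩
  have h := (ok_iff _ _ _).1 (Fnd_lt k3)
  rw [show KK n B T (star n B T A) = univ from
    eq_univ_of_forall fun v => mem_KK.2 (k2 v v.2)] at h
  refine ⟨_, _, ?_, h, fun τ' e' h' => ?_⟩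
  · rw [alg3, out, List.range_succ_eq_map, listCode, List.map_ofFn, List.ofFn_eq_map,
      List.ofFn_eq_map, ← List.map_coe_finRange_eq_range, List.map_cons, List.map_map, List.map_map]
    simp [Function.comp_def, hA, tb, best]
  · rcases lt_or_ge e' B with he | he
    · exact (key τ' e' he h').1
    · omega

end Crest.Agent.R286
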